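import Vale.Agent.P038.H289.Pot

/-!
# The erosion of a minimal admissible pair (P038)
-/

namespace Vale.Agent.P038.H289

open Finset

variable {V : Type*} [Fintype V] [DecidableEq V]

/-- An admissible pair of families. -/
structure Adm (A : V → V → Prop) (B C : V → Finset V) : Prop where
  AB : ∀ a x, A a x → x ∈ B a
  AC : ∀ a x, A a x → x ∈ C a
  anti : ∀ a x, x ∈ B a → a ∈ C x → a = x

/-- The energy of a pair of families. -/
noncomputable def E (A : V → V → Prop) (B C : V → Finset V) : ℤ :=
  ∑ a, c A (B a) + ∑ a, c A (C a)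

open Classical in
/-- The erosion of a family along the first coordinate. -/
noncomputable def ero (A : V → V → Prop) (B : V → Finset V) (a : V) : Finset V :=
  univ.filter fun x => ∀ a', A a' a → x ∈ B a'

theorem mem_ero {A : V → V → Prop} {B : V → Finset V} {a x : V} :
    x ∈ ero A B a ↔ ∀ a', A a' a → x ∈ B a' := by
  classical
  simp [ero]

theorem exists_min_adm {A : V → V → Prop} (hr : ∀ a, A a a)
    (ha : ∀ a b, A a b → A b a → a = b) :
    ∃ B C, Adm A B C ∧ ∀ B' C', Adm A B' C' → E A B C ≤ E A B' C' := by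
  classical
  have h1 : ({p : (V → Finset V) × (V → Finset V) | Adm A p.1 p.2}).Nonempty := by
    refine ⟨(fun a => univ.filter fun x => A a x, fun a => univ.filter fun x => A a x), ?_⟩
    refine ⟨?_, ?_, ?_⟩
    · intro a x h
      simpa using h
    · intro a x h
      simpa using h
    · intro a x h h'
      simp only [mem_filter, mem_univ, true_and] at h h'
      exact ha a x h h'
  obtain ⟨p, hp, hmin⟩ := Set.exists_min_image _ (fun p : (V → Finset V) × (V → Finset V) =>
    E A p.1 p.2) (Set.toFinite _) h1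
  exact ⟨p.1, p.2, hp, fun B' C' h => hmin (B', C') h⟩

theorem dc (S : V → Finset V) :
    ∑ a, (S a).card = ∑ b, (univ.filter fun a => b ∈ S a).card := by
  have h : ∀ a, (S a).card = ∑ b, if b ∈ S a then 1 else 0 := by
    intro a
    rw [← card_filter]
    congr 1
    ext
    simp
  simp_rw [h, card_filter]
  exact sum_comm

theorem sum_upd (f : Finset V → ℤ) (C : V → Finset V) (b : V) (T : Finset V) :
    ∑ x, f (Function.update C b T x) = ∑ x, f (C x) - f (C b) + f T := by
  rw [← add_sum_erase univ (fun x => f (Function.update C b T x)) (mem_univ b),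
    ← add_sum_erase univ (fun x => f (C x)) (mem_univ b)]
  have h : ∑ x ∈ univ.erase b, f (Function.update C b T x) = ∑ x ∈ univ.erase b, f (C x) := by
    apply sum_congr rfl
    intro x hx
    rw [Function.update_of_ne (mem_erase.1 hx).1]
  simp only [h, Function.update_self]
  ring

section

variable {A : V → V → Prop} {B C : V → Finset V}

theorem adm_ero (hr : ∀ a, A a a) (h : Adm A B C) :
    Adm A (fun a => N A (ero A B a)) (fun a => N A (ero A C a)) := by
  refine ⟨?_, ?_, ?_⟩
  · intro a x hax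
    exact mem_N.2 ⟨a, mem_ero.2 fun a' ha' => h.AB a' a ha', hax⟩
  · intro a x hax
    exact mem_N.2 ⟨a, mem_ero.2 fun a' ha' => h.AC a' a ha', hax⟩
  · intro a u hu ha
    obtain ⟨x, hx, hxu⟩ := mem_N.1 hu
    obtain ⟨y, hy, hya⟩ := mem_N.1 ha
    rw [mem_ero] at hx hy
    have h1 : y = x := h.anti y x (hx y hya) (hy x hxu)
    subst h1
    have h2 : a = y := h.anti a y (hx a (hr a)) (h.AC y a hya)
    have h3 : y = u := h.anti y u (h.AB y u hxu) (hy u (hr u))
    exact h2.trans h3

theorem mem_ero_self (h : Adm A B C) (a : V) : a ∈ ero A B a :=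
  mem_ero.2 fun a' ha' => h.AB a' a ha'

/-- The main inequality: the erosion of a minimal admissible pair has smaller energy. -/
theorem ero_le (hr : ∀ a, A a a) (h : Adm A B C)
    (hmin : ∀ B' C', Adm A B' C' → E A B C ≤ E A B' C') :
    E A (ero A B) (ero A C) ≤ E A B C := by
  classical
  set P : V → Finset V := fun b => univ.filter (fun a => a ≠ b ∧ b ∈ B a) with hP
  set U : V → Finset V := fun b => (C b)ᶜ with hU
  set P' : V → Finset V := fun b => univ.filter (fun a => ∃ b', A b' b ∧ a ∈ P b') with hP'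
  set U' : V → Finset V := fun b => univ.filter (fun a => ∃ b', A b' b ∧ a ∈ U b') with hU'
  have mP : ∀ a b, a ∈ P b ↔ a ≠ b ∧ b ∈ B a := fun a b => by simp [hP]
  have mU : ∀ a b, a ∈ U b ↔ a ∉ C b := fun a b => by simp [hU]
  have mP' : ∀ a b, a ∈ P' b ↔ ∃ b', A b' b ∧ a ∈ P b' := fun a b => by
    simp only [hP', mem_filter, mem_univ, true_and]
  have mU' : ∀ a b, a ∈ U' b ↔ ∃ b', A b' b ∧ a ∈ U b' := fun a b => by
    simp only [hU', mem_filter, mem_univ, true_and]
  have hPU : ∀ b, P b ⊆ U b := by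
    intro b a ha
    rw [mP] at ha
    rw [mU]
    exact fun h1 => ha.1 (h.anti a b ha.2 h1)
  have hPU' : ∀ b, P' b ⊆ U' b := by
    intro b a ha
    rw [mP'] at ha
    rw [mU']
    obtain ⟨b', h1, h2⟩ := ha
    exact ⟨b', h1, hPU b' h2⟩
  have hPP' : ∀ b b', A b' b → P b' ⊆ P' b := by
    intro b b' hb a ha
    rw [mP']
    exact ⟨b', hb, ha⟩
  have hUU' : ∀ b b', A b' b → U b' ⊆ U' b := by
    intro b b' hb a ha
    rw [mU']
    exact ⟨b', hb, ha⟩
  have hbP' : ∀ b, b ∉ P' b := by
    intro b hb
    obtain ⟨b', h1, h2⟩ := (mP' b b).1 hb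
    rw [mP] at h2
    exact h2.1 (h.anti b b' h2.2 (h.AC b' b h1))
  have hbP : ∀ b, b ∉ P b := fun b hb => ((mP b b).1 hb).1 rfl
  have hbI : ∀ b, b ∉ I A (P b) := fun b hb => hbP b (mem_I.1 hb b (hr b))
  have hbI' : ∀ b, b ∉ I A (P' b) := fun b hb => hbP' b (mem_I.1 hb b (hr b))
  -- (V)
  have hV : ∀ b R, P b ⊆ R → R ⊆ U b → ic A (U b) ≤ ic A R := by
    intro b R h1 h2
    have hadm : Adm A B (Function.update C b Rᶜ) := by
      refine ⟨h.AB, ?_, ?_⟩
      · intro a x hax
        by_cases hab : a = b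
        · subst hab
          rw [Function.update_self, mem_compl]
          exact fun h3 => (mU x a).1 (h2 h3) (h.AC a x hax)
        · rw [Function.update_of_ne hab]
          exact h.AC a x hax
      · intro a x hx ha
        by_cases hxb : x = b
        · subst hxb
          rw [Function.update_self, mem_compl] at ha
          by_contra hne
          exact ha (h1 ((mP a x).2 ⟨hne, hx⟩))
        · rw [Function.update_of_ne hxb] at ha
          exact h.anti a x hx ha
    have h3 := hmin _ _ hadm
    unfold E at h3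
    rw [sum_upd (c A) C b Rᶜ, c_compl] at h3
    have h4 : c A (C b) = ic A (U b) := by
      rw [← c_compl, hU, compl_compl]
    linarith
  -- (V')
  have hV' : ∀ b R, P' b ⊆ R → R ⊆ U' b → ic A (U' b) ≤ ic A R := by
    intro b R h1 h2
    have key : ∀ T : Finset V, (∀ b' ∈ T, A b' b) → ic A (R ∪ T.biUnion U) ≤ ic A R := by
      intro T
      induction T using Finset.induction_on with
      | empty => intro _; simp
      | insert b' T hb' ih =>
        intro hT
        have h3 := ih fun b'' hb'' => hT b'' (mem_insert_of_mem hb'')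
        have hA := hT b' (mem_insert_self _ _)
        have h4 : ic A (U b') ≤ ic A ((R ∪ T.biUnion U) ∩ U b') := by
          apply hV
          · apply subset_inter
            · exact ((hPP' b b' hA).trans h1).trans subset_union_left
            · exact hPU b'
          · exact inter_subset_right
        have h5 := ic_submod A (R ∪ T.biUnion U) (U b')
        have h6 : R ∪ (insert b' T).biUnion U = (R ∪ T.biUnion U) ∪ U b' := by
          rw [biUnion_insert]
          ext x
          simp only [mem_union]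
          tauto
        rw [h6]
        linarith
    have h3 := key (univ.filter fun b' => A b' b) (fun b' hb' => (mem_filter.1 hb').2)
    have h4 : R ∪ (univ.filter fun b' => A b' b).biUnion U = U' b := by
      ext x
      rw [mem_union, mem_biUnion, mU']
      constructor
      · rintro (h5 | ⟨b', h5, h6⟩)
        · exact (mU' x b).1 (h2 h5)
        · exact ⟨b', (mem_filter.1 h5).2, h6⟩
      · rintro ⟨b', h5, h6⟩
        exact Or.inr ⟨b', mem_filter.2 ⟨mem_univ _, h5⟩, h6⟩
    rwa [h4] at h3
  -- (H)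
  have hH : ∀ (a : V) (Z : Finset V), (∀ x ∈ Z, a ∈ U x ∧ a ∉ P x) →
      ∃ Y : Finset V, Z.card ≤ Y.card ∧ ∀ x ∈ Y, (∃ y ∈ Z, A y x) ∧ a ∉ P' x := by
    intro a Z hZ
    have hZ' : ∀ x ∈ Z, a ∉ C x ∧ x ∉ B a := by
      intro x hx
      obtain ⟨h1, h2⟩ := hZ x hx
      rw [mU] at h1
      refine ⟨h1, fun h3 => h2 ((mP a x).2 ⟨?_, h3⟩)⟩
      rintro rfl
      exact h1 (h.AC a a (hr a))
    have hadm : Adm A (Function.update B a (B a ∪ Z)) C := by
      refine ⟨?_, h.AC, ?_⟩
      · intro a' x hax
        by_cases haa : a' = a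
        · subst haa
          rw [Function.update_self]
          exact mem_union_left _ (h.AB a' x hax)
        · rw [Function.update_of_ne haa]
          exact h.AB a' x hax
      · intro a' x hx ha'
        by_cases haa : a' = a
        · subst haa
          rw [Function.update_self] at hx
          rcases mem_union.1 hx with hx | hx
          · exact h.anti a' x hx ha'
          · exact absurd ha' (hZ' x hx).1
        · rw [Function.update_of_ne haa] at hx
          exact h.anti a' x hx ha'
    have h3 := hmin _ _ hadm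
    unfold E at h3
    rw [sum_upd (c A) B a (B a ∪ Z)] at h3
    have h4 : c A (B a) ≤ c A (B a ∪ Z) := by linarith
    have h5 : (B a ∪ Z).card = (B a).card + Z.card := by
      apply card_union_of_disjoint
      rw [disjoint_right]
      exact fun x hx => (hZ' x hx).2
    have h6 : N A (B a) ⊆ N A (B a ∪ Z) := by
      intro x hx
      obtain ⟨s, hs, hsx⟩ := mem_N.1 hx
      exact mem_N.2 ⟨s, mem_union_left _ hs, hsx⟩
    have h7 := card_sdiff_add_card_eq_card h6
    refine ⟨N A (B a ∪ Z) \ N A (B a), ?_, ?_⟩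
    · unfold c at h4
      rw [h5] at h4
      push_cast at h4
      omega
    · intro x hx
      obtain ⟨h8, h9⟩ := mem_sdiff.1 hx
      constructor
      · obtain ⟨s, hs, hsx⟩ := mem_N.1 h8
        rcases mem_union.1 hs with hs | hs
        · exact absurd (mem_N.2 ⟨s, hs, hsx⟩) h9
        · exact ⟨s, hs, hsx⟩
      · intro h10
        obtain ⟨b', h11, h12⟩ := (mP' a x).1 h10
        exact h9 (mem_N.2 ⟨b', ((mP a b').1 h12).2, h11⟩)
  have hS := ineqS hPU hPU' hPP' hUU' hV' hH
  -- columns
  have f3 : ∀ b, (univ.filter fun a => b ∈ B a) = insert b (P b) := by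
    intro b
    ext a
    rw [mem_filter, mem_insert, mP]
    constructor
    · rintro ⟨-, h1⟩
      by_cases hab : a = b
      · exact Or.inl hab
      · exact Or.inr ⟨hab, h1⟩
    · rintro (rfl | h1)
      · exact ⟨mem_univ _, h.AB a a (hr a)⟩
      · exact ⟨mem_univ _, h1.2⟩
  have f4 : ∀ b, (univ.filter fun a => b ∈ N A (B a)) = insert b (P' b) := by
    intro b
    ext a
    rw [mem_filter, mem_insert, mP', mem_N]
    constructor
    · rintro ⟨-, x, h1, h2⟩
      by_cases hab : a = b
      · exact Or.inl hab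
      · right
        by_cases hax : a = x
        · subst hax
          exact ⟨b, hr b, (mP a b).2 ⟨hab, h.AB a b h2⟩⟩
        · exact ⟨x, h2, (mP a x).2 ⟨hax, h1⟩⟩
    · rintro (rfl | ⟨b', h1, h2⟩)
      · exact ⟨mem_univ _, a, h.AB a a (hr a), hr a⟩
      · exact ⟨mem_univ _, b', ((mP a b').1 h2).2, h1⟩
  have f5 : ∀ b, (univ.filter fun a => b ∈ ero A B a) = insert b (I A (P b)) := by
    intro b
    ext a
    rw [mem_filter, mem_insert, mem_I, mem_ero]
    constructor
    · rintro ⟨-, h1⟩
      by_cases hab : a = b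
      · exact Or.inl hab
      · right
        intro a' ha'
        rw [mP]
        refine ⟨?_, h1 a' ha'⟩
        rintro rfl
        exact hab (h.anti a a' (h1 a (hr a)) (h.AC a' a ha'))
    · rintro (rfl | h1)
      · exact ⟨mem_univ _, fun a' ha' => h.AB a' a ha'⟩
      · exact ⟨mem_univ _, fun a' ha' => ((mP a' b).1 (h1 a' ha')).2⟩
  have f6 : ∀ b, (univ.filter fun a => b ∈ N A (ero A B a)) ⊆ insert b (I A (P' b)) := by
    intro b a ha
    rw [mem_filter, mem_N] at ha
    obtain ⟨-, x, h1, h2⟩ := ha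
    rw [mem_ero] at h1
    rw [mem_insert, mem_I]
    by_cases hab : a = b
    · exact Or.inl hab
    · right
      intro a' ha'
      rw [mP']
      by_cases hax : a' = x
      · subst hax
        refine ⟨b, hr b, (mP a' b).2 ⟨?_, h.AB a' b h2⟩⟩
        rintro rfl
        exact hab (h.anti a a' (h1 a (hr a)) (h.AC a' a ha'))
      · exact ⟨x, h2, (mP a' x).2 ⟨hax, h1 a' ha'⟩⟩
  have g3 : ∑ a, (B a).card = ∑ b, ((P b).card + 1) := by
    rw [dc B]
    exact sum_congr rfl fun b _ => by rw [f3 b, card_insert_of_notMem (hbP b)]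
  have g4 : ∑ a, (N A (B a)).card = ∑ b, ((P' b).card + 1) := by
    rw [dc fun a => N A (B a)]
    exact sum_congr rfl fun b _ => by rw [f4 b, card_insert_of_notMem (hbP' b)]
  have g5 : ∑ a, (ero A B a).card = ∑ b, ((I A (P b)).card + 1) := by
    rw [dc (ero A B)]
    exact sum_congr rfl fun b _ => by rw [f5 b, card_insert_of_notMem (hbI b)]
  have g6 : ∑ a, (N A (ero A B a)).card ≤ ∑ b, ((I A (P' b)).card + 1) := by
    rw [dc fun a => N A (ero A B a)]
    refine sum_le_sum fun b _ => ?_
    rw [← card_insert_of_notMem (hbI' b)]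
    exact card_le_card (f6 b)
  have f7 : ∀ b, c A (C b) = ic A (U b) := by
    intro b
    rw [← c_compl, hU, compl_compl]
  have f8 : ∀ b, c A (ero A C b) = ic A (U' b) := by
    intro b
    rw [← c_compl]
    congr 1
    ext y
    rw [mem_ero, mem_compl, mU']
    constructor
    · rintro h1 ⟨b', h2, h3⟩
      exact (mU y b').1 h3 (h1 b' h2)
    · intro h1 b' h2
      by_contra h3
      exact h1 ⟨b', h2, (mU y b').2 h3⟩
  have k1 : ∑ a, c A (B a) = ∑ b, (((P' b).card : ℤ) - (P b).card) := by
    unfold c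
    rw [sum_sub_distrib, sum_sub_distrib]
    have g3' : (∑ a, ((B a).card : ℤ)) = ∑ b, (((P b).card : ℤ) + 1) := by exact_mod_cast g3
    have g4' : (∑ a, ((N A (B a)).card : ℤ)) = ∑ b, (((P' b).card : ℤ) + 1) := by
      exact_mod_cast g4
    rw [g3', g4', sum_add_distrib, sum_add_distrib]
    ring
  have k2 : ∑ a, c A (ero A B a) ≤ ∑ b, (((I A (P' b)).card : ℤ) - (I A (P b)).card) := by
    unfold c
    rw [sum_sub_distrib, sum_sub_distrib]
    have g5' : (∑ a, ((ero A B a).card : ℤ)) = ∑ b, (((I A (P b)).card : ℤ) + 1) := by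
      exact_mod_cast g5
    have g6' : (∑ a, ((N A (ero A B a)).card : ℤ)) ≤ ∑ b, (((I A (P' b)).card : ℤ) + 1) := by
      exact_mod_cast g6
    rw [sum_add_distrib] at g5' g6'
    linarith
  have k3 : ∑ b, c A (C b) = ∑ b, ic A (U b) := sum_congr rfl fun b _ => f7 b
  have k4 : ∑ b, c A (ero A C b) = ∑ b, ic A (U' b) := sum_congr rfl fun b _ => f8 b
  unfold E
  rw [k1, k3, k4]
  have k5 : ∑ x, (ic A (P x) - ic A (U x)) = ∑ x, ((P x).card : ℤ) - ∑ x, ((I A (P x)).card : ℤ) -
      ∑ x, ic A (U x) := by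
    rw [← sum_sub_distrib, ← sum_sub_distrib]
    exact sum_congr rfl fun x _ => by simp only [ic]
  have k6 : ∑ x, (ic A (P' x) - ic A (U' x)) =
      ∑ x, ((P' x).card : ℤ) - ∑ x, ((I A (P' x)).card : ℤ) - ∑ x, ic A (U' x) := by
    rw [← sum_sub_distrib, ← sum_sub_distrib]
    exact sum_congr rfl fun x _ => by simp only [ic]
  rw [k5, k6] at hS
  rw [sum_sub_distrib] at k2 ⊢
  linarith

end

/-- The result of this file. -/
theorem cut {A : V → V → Prop} (hr : ∀ a, A a a) (ha : ∀ a b, A a b → A b a → a = b) :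
    ∃ X Y : V → Finset V, (∀ a, a ∈ X a) ∧ (∀ a, a ∈ Y a) ∧
      (∀ a u, u ∈ N A (X a) → a ∈ N A (Y u) → a = u) ∧
      ∑ a, c A (X a) + ∑ a, c A (Y a) ≤
        ∑ a, c A (N A (X a)) + ∑ a, c A (N A (Y a)) := by
  obtain ⟨B, C, h, hmin⟩ := exists_min_adm hr ha
  have h1 := adm_ero hr h
  refine ⟨ero A B, ero A C, mem_ero_self h, fun a => mem_ero.2 fun a' ha' => h.AC a' a ha',
    h1.anti, ?_⟩
  exact (ero_le hr h hmin).trans (hmin _ _ h1)

end Vale.Agent.P038.H289
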