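import Vale.Agent.P038.H289.Cut
import Vale.Agent.P038.Defs

/-!
# The inequality (G) in an arc-minimal counterexample (P038)
-/

namespace Vale.Agent.P038.H289

open Finset

variable {V : Type*} [Fintype V]

/-- A counterexample to Seymour's second neighbourhood conjecture. -/
def CE (D : OGraph V) : Prop := ∀ v, (N2 D v).card < (N1 D v).card

/-- The number of arcs. -/
noncomputable def arcs (D : OGraph V) : ℕ := ∑ v, (N1 D v).card

/-- Reflexive arcs. -/
def RA (D : OGraph V) (x y : V) : Prop := x = y ∨ D.arc x y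

/-- Delete all arcs from `X` to `Z`. -/
def del (D : OGraph V) (X Z : Finset V) : OGraph V where
  arc a b := D.arc a b ∧ ¬ (a ∈ X ∧ b ∈ Z)
  loopless v h := D.loopless v h.1
  asymm _ _ h h' := D.asymm _ _ h.1 h'.1

theorem exists_minCE {D : OGraph V} (h : CE D) :
    ∃ D' : OGraph V, CE D' ∧ ∀ D'' : OGraph V, CE D'' → arcs D' ≤ arcs D'' := by
  classical
  have h1 : ∃ k, ∃ D' : OGraph V, CE D' ∧ arcs D' = k := ⟨_, D, h, rfl⟩
  obtain ⟨D', h2, h3⟩ := Nat.find_spec h1
  refine ⟨D', h2, fun D'' h4 => ?_⟩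
  rw [h3]
  exact Nat.find_min' h1 ⟨D'', h4, rfl⟩

/-- (G): in an arc-minimal counterexample the second out-neighbourhood of every set is smaller
than the first one. -/
theorem G [DecidableEq V] {D : OGraph V} (h : CE D)
    (hmin : ∀ D' : OGraph V, CE D' → arcs D ≤ arcs D') (X : Finset V) (hX : N (RA D) X ≠ X) :
    c (RA D) (N (RA D) X) < c (RA D) X := by
  classical
  set A := RA D with hA
  have hrefl : ∀ a, A a a := fun a => Or.inl rfl
  have hsub : ∀ S : Finset V, S ⊆ N A S := fun S s hs => mem_N.2 ⟨s, hs, hrefl s⟩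
  set L := N A X \ X with hL
  have hXL : N A X = X ∪ L := by rw [hL, union_sdiff_of_subset (hsub X)]
  have hLX : Disjoint X L := disjoint_sdiff
  have hLne : L.Nonempty := by
    rw [nonempty_iff_ne_empty]
    intro he
    rw [he, union_empty] at hXL
    exact hX hXL
  set d : Finset V → ℤ := fun T => ((N A T \ X).card : ℤ) - 2 * T.card with hd
  by_contra hcon
  push Not at hcon
  have hNN : N A (N A X) = X ∪ (N A L \ X) := by
    ext z
    rw [mem_union, mem_sdiff, mem_N, mem_N]
    constructor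
    · rintro ⟨s, hs, hsz⟩
      by_cases hz : z ∈ X
      · exact Or.inl hz
      · right
        refine ⟨?_, hz⟩
        rw [hXL, mem_union] at hs
        rcases hs with hs | hs
        · refine ⟨z, ?_, hrefl z⟩
          exact mem_sdiff.2 ⟨mem_N.2 ⟨s, hs, hsz⟩, hz⟩
        · exact ⟨s, hs, hsz⟩
    · rintro (hz | ⟨⟨s, hs, hsz⟩, hz⟩)
      · exact ⟨z, hsub X hz, hrefl z⟩
      · exact ⟨s, (mem_sdiff.1 hs).1, hsz⟩
  have hdL : 0 ≤ d L := by
    unfold c at hcon
    have h1 : (N A (N A X)).card = X.card + (N A L \ X).card := by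
      rw [hNN, card_union_of_disjoint disjoint_sdiff]
    have h2 : (N A X).card = X.card + L.card := by
      rw [hXL, card_union_of_disjoint hLX]
    simp only [hd]
    omega
  have hd0 : d ∅ = 0 := by
    have : N A (∅ : Finset V) = ∅ := by
      rw [eq_empty_iff_forall_notMem]
      intro z hz
      obtain ⟨s, hs, _⟩ := mem_N.1 hz
      simp at hs
    simp [hd, this]
  obtain ⟨T, hT, hTmin⟩ := exists_min_image L.ssubsets d
    ⟨∅, mem_ssubsets.2 (Finset.empty_ssubset.2 hLne)⟩
  rw [mem_ssubsets] at hT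
  have hTL : T ⊆ L := hT.1
  have hall : ∀ S ⊆ L, d T ≤ d S := by
    intro S hS
    by_cases he : S = L
    · rw [he]
      have h1 := hTmin ∅ (mem_ssubsets.2 (Finset.empty_ssubset.2 hLne))
      linarith
    · exact hTmin S (mem_ssubsets.2 (Finset.ssubset_iff_subset_ne.2 ⟨hS, he⟩))
  set Z := L \ T with hZ
  set D' := del D X Z with hD'
  have hNT : ∀ Dy : Finset V, Dy ⊆ Z →
      (2 * Dy.card : ℤ) ≤ (N A Dy \ (N A T ∪ X)).card := by
    intro Dy hDy
    have hDyL : Dy ⊆ L := hDy.trans sdiff_subset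
    have hDT : Disjoint T Dy := by
      rw [disjoint_left]
      intro z hz hz'
      exact (mem_sdiff.1 (hDy hz')).2 hz
    have h1 := hall (T ∪ Dy) (union_subset hTL hDyL)
    have e1 : N A (T ∪ Dy) \ X = (N A T \ X) ∪ (N A Dy \ (N A T ∪ X)) := by
      ext z
      simp only [mem_sdiff, mem_union, mem_N]
      constructor
      · rintro ⟨⟨s, hs, hsz⟩, hz⟩
        by_cases hzT : ∃ s ∈ T, A s z
        · exact Or.inl ⟨hzT, hz⟩
        · right
          rcases hs with hs | hs
          · exact absurd ⟨s, hs, hsz⟩ hzT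
          · exact ⟨⟨s, hs, hsz⟩, fun h2 => h2.elim hzT hz⟩
      · rintro (⟨⟨s, hs, hsz⟩, hz⟩ | ⟨⟨s, hs, hsz⟩, hz⟩)
        · exact ⟨⟨s, Or.inl hs, hsz⟩, hz⟩
        · exact ⟨⟨s, Or.inr hs, hsz⟩, fun h2 => hz (Or.inr h2)⟩
    have e2 : Disjoint (N A T \ X) (N A Dy \ (N A T ∪ X)) := by
      rw [disjoint_left]
      intro z hz hz'
      exact (mem_sdiff.1 hz').2 (mem_union_left _ (mem_sdiff.1 hz).1)
    simp only [hd] at h1
    rw [e1, card_union_of_disjoint e2, card_union_of_disjoint hDT] at h1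
    push_cast at h1
    linarith
  have hCE : CE D' := by
    intro y
    by_cases hy : y ∈ X
    · set Dy := N1 D y ∩ Z with hDy
      set Ey := N A Dy \ (N A T ∪ X) with hEy
      have h0 : (2 * Dy.card : ℤ) ≤ (Ey.card : ℤ) := hNT Dy inter_subset_right
      have hN1 : N1 D' y = N1 D y \ Dy := by
        ext z
        rw [mem_N1, mem_sdiff, hDy, mem_inter, mem_N1]
        constructor
        · rintro ⟨h1, h2⟩
          exact ⟨h1, fun h3 => h2 ⟨hy, h3.2⟩⟩
        · rintro ⟨h1, h2⟩
          exact ⟨h1, fun h3 => h2 ⟨h1, h3.2⟩⟩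
      have hEsub : Ey ⊆ N2 D y ∪ Dy := by
        intro z hz
        obtain ⟨hz1, hz2⟩ := mem_sdiff.1 hz
        have hzX : z ∉ X := fun h3 => hz2 (mem_union_right _ h3)
        have hzT : z ∉ N A T := fun h3 => hz2 (mem_union_left _ h3)
        obtain ⟨c, hc, hcz⟩ := mem_N.1 hz1
        rcases hcz with rfl | hcz
        · exact mem_union_right _ hc
        · have hyc : D.arc y c := mem_N1.1 (mem_inter.1 hc).1
          by_cases hyz : D.arc y z
          · refine mem_union_right _ (mem_inter.2 ⟨mem_N1.2 hyz, ?_⟩)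
            refine mem_sdiff.2 ⟨?_, ?_⟩
            · exact mem_sdiff.2 ⟨mem_N.2 ⟨y, hy, Or.inr hyz⟩, hzX⟩
            · intro h3
              exact hzT (hsub T h3)
          · refine mem_union_left _ (mem_N2.2 ⟨?_, hyz, c, hyc, hcz⟩)
            rintro rfl
            exact hzX hy
      have hN2 : N2 D' y ⊆ (N2 D y ∪ Dy) \ Ey := by
        intro z hz
        rw [mem_N2] at hz
        obtain ⟨hzy, hnz, c, hyc, hcz⟩ := hz
        refine mem_sdiff.2 ⟨?_, ?_⟩
        · by_cases hyz : D.arc y z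
          · refine mem_union_right _ (mem_inter.2 ⟨mem_N1.2 hyz, ?_⟩)
            by_contra hzZ
            exact hnz ⟨hyz, fun h3 => hzZ h3.2⟩
          · exact mem_union_left _ (mem_N2.2 ⟨hzy, hyz, c, hyc.1, hcz.1⟩)
        · intro hzE
          obtain ⟨_, hz2⟩ := mem_sdiff.1 hzE
          have hzX : z ∉ X := fun h3 => hz2 (mem_union_right _ h3)
          have hzT : z ∉ N A T := fun h3 => hz2 (mem_union_left _ h3)
          by_cases hcX : c ∈ X
          · have hzL : z ∈ L := mem_sdiff.2 ⟨mem_N.2 ⟨c, hcX, Or.inr hcz.1⟩, hzX⟩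
            have hzZ : z ∈ Z := mem_sdiff.2 ⟨hzL, fun h3 => hzT (hsub T h3)⟩
            exact hcz.2 ⟨hcX, hzZ⟩
          · have hcL : c ∈ L := mem_sdiff.2 ⟨mem_N.2 ⟨y, hy, Or.inr hyc.1⟩, hcX⟩
            have hcT : c ∈ T := by
              by_contra hcT
              exact hyc.2 ⟨hy, mem_sdiff.2 ⟨hcL, hcT⟩⟩
            exact hzT (mem_N.2 ⟨c, hcT, Or.inr hcz.1⟩)
      have h1 : (N2 D' y).card ≤ ((N2 D y ∪ Dy) \ Ey).card := card_le_card hN2
      have h2 : ((N2 D y ∪ Dy) \ Ey).card + Ey.card = (N2 D y ∪ Dy).card :=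
        card_sdiff_add_card_eq_card hEsub
      have h3 : (N2 D y ∪ Dy).card = (N2 D y).card + Dy.card := by
        apply card_union_of_disjoint
        rw [disjoint_left]
        intro z hz hz'
        exact (mem_N2.1 hz).2.1 (mem_N1.1 (mem_inter.1 hz').1)
      have h4 : (N1 D y \ Dy).card + Dy.card = (N1 D y).card :=
        card_sdiff_add_card_eq_card inter_subset_left
      have h5 := h y
      rw [hN1]
      omega
    · have h1 : N1 D' y = N1 D y := by
        ext z
        rw [mem_N1, mem_N1]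
        exact ⟨fun h3 => h3.1, fun h3 => ⟨h3, fun h4 => hy h4.1⟩⟩
      have h2 : N2 D' y ⊆ N2 D y := by
        intro z hz
        rw [mem_N2] at hz ⊢
        obtain ⟨hzv, hnz, c, hvc, hcz⟩ := hz
        exact ⟨hzv, fun h3 => hnz ⟨h3, fun h4 => hy h4.1⟩, c, hvc.1, hcz.1⟩
      have h3 := card_le_card h2
      have h4 := h y
      rw [h1]
      omega
  have hle := hmin D' hCE
  have hsubN : ∀ v, N1 D' v ⊆ N1 D v := by
    intro v z hz
    rw [mem_N1] at hz ⊢
    exact hz.1
  obtain ⟨z, hzL, hzT⟩ := exists_of_ssubset hT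
  obtain ⟨hz1, hz2⟩ := mem_sdiff.1 hzL
  obtain ⟨y, hy, hyz⟩ := mem_N.1 hz1
  have hyz' : D.arc y z := by
    rcases hyz with rfl | hyz
    · exact absurd hy hz2
    · exact hyz
  have hlt : arcs D' < arcs D := by
    unfold arcs
    refine sum_lt_sum (fun v _ => card_le_card (hsubN v)) ⟨y, mem_univ _, ?_⟩
    apply card_lt_card
    refine Finset.ssubset_iff_subset_ne.2 ⟨hsubN y, ?_⟩
    intro he
    have h1 : z ∈ N1 D' y := by
      rw [he]
      exact mem_N1.2 hyz'
    exact (mem_N1.1 h1).2 ⟨hy, mem_sdiff.2 ⟨hzL, hzT⟩⟩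
  omega

/-- Two distinct vertices which can be reached from each other. -/
theorem exists_cycle [Nonempty V] {D : OGraph V} (h : ∀ v, ∃ u, D.arc v u) :
    ∃ a u, D.arc a u ∧ Relation.ReflTransGen D.arc u a := by
  classical
  let R : V → Finset V := fun v => univ.filter fun x => Relation.ReflTransGen D.arc v x
  obtain ⟨a, -, ha⟩ := exists_min_image (univ : Finset V) (fun v => (R v).card) univ_nonempty
  obtain ⟨u, hu⟩ := h a
  have h1 : R u ⊆ R a := by
    intro x hx
    have h2 : Relation.ReflTransGen D.arc u x := (mem_filter.1 hx).2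
    exact mem_filter.2 ⟨mem_univ _, Relation.ReflTransGen.head hu h2⟩
  have h2 : R u = R a := eq_of_subset_of_card_le h1 (ha u (mem_univ _))
  have h3 : a ∈ R u := by
    rw [h2]
    exact mem_filter.2 ⟨mem_univ _, Relation.ReflTransGen.refl⟩
  exact ⟨a, u, hu, (mem_filter.1 h3).2⟩

theorem mem_of_closed [DecidableEq V] {D : OGraph V} {X : Finset V} (hX : N (RA D) X = X) {a u : V}
    (ha : a ∈ X) (h : Relation.ReflTransGen D.arc a u) : u ∈ X := by
  induction h with
  | refl => exact ha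
  | tail _ h1 ih =>
    rw [← hX]
    exact mem_N.2 ⟨_, ih, Or.inr h1⟩

/-- **Seymour's second neighbourhood conjecture.** -/
theorem seymour [Nonempty V] (D : OGraph V) : ∃ v, (N1 D v).card ≤ (N2 D v).card := by
  classical
  by_contra hcon
  push Not at hcon
  obtain ⟨D', hCE, hmin⟩ := exists_minCE (D := D) hcon
  have hG := G hCE hmin
  have hout : ∀ v, ∃ u, D'.arc v u := by
    intro v
    have h1 := hCE v
    have h2 : (N1 D' v).Nonempty := card_pos.1 (by omega)
    obtain ⟨u, hu⟩ := h2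
    exact ⟨u, mem_N1.1 hu⟩
  obtain ⟨a, u, hau, hua⟩ := exists_cycle hout
  obtain ⟨X, Y, hX, hY, hXY, hsum⟩ := cut (A := RA D') (fun a => Or.inl rfl) (by
    rintro x y (h1 | h1) (h2 | h2)
    · exact h1
    · exact h1
    · exact h2.symm
    · exact absurd h2 (D'.asymm _ _ h1))
  have hle : ∀ S : Finset V, c (RA D') (N (RA D') S) ≤ c (RA D') S := by
    intro S
    by_cases hS : N (RA D') S = S
    · rw [hS]
    · exact (hG S hS).le
  have hne : N (RA D') (X a) ≠ X a ∨ N (RA D') (Y u) ≠ Y u := by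
    by_contra hno
    push Not at hno
    have h1 : u ∈ X a := mem_of_closed hno.1 (hX a) (Relation.ReflTransGen.single hau)
    have h2 : a ∈ Y u := mem_of_closed hno.2 (hY u) hua
    have h3 := hXY a u (by rw [hno.1]; exact h1) (by rw [hno.2]; exact h2)
    subst h3
    exact D'.loopless _ hau
  have h1 : ∑ a, c (RA D') (N (RA D') (X a)) ≤ ∑ a, c (RA D') (X a) :=
    sum_le_sum fun a _ => hle (X a)
  have h2 : ∑ a, c (RA D') (N (RA D') (Y a)) ≤ ∑ a, c (RA D') (Y a) :=
    sum_le_sum fun a _ => hle (Y a)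
  rcases hne with hne | hne
  · have h3 : ∑ a, c (RA D') (N (RA D') (X a)) < ∑ a, c (RA D') (X a) :=
      sum_lt_sum (fun a _ => hle (X a)) ⟨a, mem_univ _, hG _ hne⟩
    linarith
  · have h3 : ∑ a, c (RA D') (N (RA D') (Y a)) < ∑ a, c (RA D') (Y a) :=
      sum_lt_sum (fun a _ => hle (Y a)) ⟨u, mem_univ _, hG _ hne⟩
    linarith

end Vale.Agent.P038.H289
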