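import Mathlib

/-!
# Submodular potentials for a reflexive relation (P038)
-/

namespace Vale.Agent.P038.H289

open Finset

variable {V : Type*} [Fintype V] [DecidableEq V]

open Classical in
/-- The out-neighbourhood `N[S]` of a set `S` (closed when `A` is reflexive). -/
noncomputable def N (A : V → V → Prop) (S : Finset V) : Finset V :=
  univ.filter fun u => ∃ s ∈ S, A s u

open Classical in
/-- The interior of a set: all points whose in-neighbours are in `S`. -/
noncomputable def I (A : V → V → Prop) (S : Finset V) : Finset V :=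
  univ.filter fun a => ∀ a', A a' a → a' ∈ S

/-- The size of the outer boundary. -/
noncomputable def c (A : V → V → Prop) (S : Finset V) : ℤ := ((N A S).card : ℤ) - S.card

/-- The size of the inner boundary. -/
noncomputable def ic (A : V → V → Prop) (S : Finset V) : ℤ := (S.card : ℤ) - (I A S).card


theorem mem_N {A : V → V → Prop} {S : Finset V} {u : V} : u ∈ N A S ↔ ∃ s ∈ S, A s u := by
  classical
  simp [N]


theorem mem_I {A : V → V → Prop} {S : Finset V} {a : V} :
    a ∈ I A S ↔ ∀ a', A a' a → a' ∈ S := by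
  classical
  simp [I]

theorem c_compl (A : V → V → Prop) (S : Finset V) : c A Sᶜ = ic A S := by
  have h : N A Sᶜ = (I A S)ᶜ := by
    ext u
    rw [mem_N, mem_compl, mem_I]
    push Not
    constructor
    · rintro ⟨s, hs, hsu⟩
      exact ⟨s, hsu, mem_compl.1 hs⟩
    · rintro ⟨s, hsu, hs⟩
      exact ⟨s, mem_compl.2 hs, hsu⟩
  unfold c ic
  rw [h, card_compl, card_compl]
  have h1 := card_le_univ S
  have h2 := card_le_univ (I A S)
  omega

theorem ic_submod (A : V → V → Prop) (S T : Finset V) :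
    ic A (S ∩ T) + ic A (S ∪ T) ≤ ic A S + ic A T := by
  have h1 : I A (S ∩ T) = I A S ∩ I A T := by
    ext a
    rw [mem_inter, mem_I, mem_I, mem_I]
    constructor
    · intro h
      exact ⟨fun a' ha' => (mem_inter.1 (h a' ha')).1, fun a' ha' => (mem_inter.1 (h a' ha')).2⟩
    · rintro ⟨h, h'⟩ a' ha'
      exact mem_inter.2 ⟨h a' ha', h' a' ha'⟩
  have h2 : I A S ∪ I A T ⊆ I A (S ∪ T) := by
    intro a ha
    rw [mem_I]
    intro a' ha'
    rcases mem_union.1 ha with h | h
    · exact mem_union_left _ (mem_I.1 h a' ha')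
    · exact mem_union_right _ (mem_I.1 h a' ha')
  have h3 := card_union_add_card_inter S T
  have h4 := card_union_add_card_inter (I A S) (I A T)
  have h5 := card_le_card h2
  unfold ic
  rw [h1]
  omega

/-- The minimum of `ic` on the interval `[P, Q]`. -/
noncomputable def m (A : V → V → Prop) (P Q : Finset V) : ℤ :=
  (univ : Finset (Finset V)).inf' univ_nonempty (fun T => ic A (P ∪ (T ∩ Q)))

theorem m_le {A : V → V → Prop} {P Q R : Finset V} (h1 : P ⊆ R) (h2 : R ⊆ Q) :
    m A P Q ≤ ic A R := by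
  have h : P ∪ (R ∩ Q) = R := by rw [inter_eq_left.2 h2, union_eq_right.2 h1]
  calc m A P Q ≤ ic A (P ∪ (R ∩ Q)) := inf'_le (fun T => ic A (P ∪ (T ∩ Q))) (mem_univ R)
    _ = ic A R := by rw [h]

theorem m_attain (A : V → V → Prop) {P Q : Finset V} (h : P ⊆ Q) :
    ∃ R, P ⊆ R ∧ R ⊆ Q ∧ ic A R = m A P Q := by
  obtain ⟨T, -, hT⟩ := exists_mem_eq_inf' (univ_nonempty : (univ : Finset (Finset V)).Nonempty)
    (fun T => ic A (P ∪ (T ∩ Q)))
  exact ⟨P ∪ (T ∩ Q), subset_union_left, union_subset h inter_subset_right, hT.symm⟩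

theorem m_self (A : V → V → Prop) (P : Finset V) : m A P P = ic A P := by
  obtain ⟨R, h1, h2, h3⟩ := m_attain A (Subset.refl P)
  rw [← h3, Subset.antisymm h2 h1]

theorem m_anti {A : V → V → Prop} {P Q Q' : Finset V} (h : P ⊆ Q) (h' : Q ⊆ Q') :
    m A P Q' ≤ m A P Q := by
  obtain ⟨R, h1, h2, h3⟩ := m_attain A h
  rw [← h3]
  exact m_le h1 (h2.trans h')

/-- The potentials. -/
noncomputable def z (A : V → V → Prop) (r : V → ℕ) (a : V) (P U : Finset V) : ℤ :=
  m A P (P ∪ U.filter (fun x => r x < r a)) - m A P (P ∪ U.filter (fun x => r x < r a + 1))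

theorem z_nonneg (A : V → V → Prop) (r : V → ℕ) (a : V) (P U : Finset V) :
    0 ≤ z A r a P U := by
  unfold z
  have : m A P (P ∪ U.filter (fun x => r x < r a + 1)) ≤
      m A P (P ∪ U.filter (fun x => r x < r a)) := by
    apply m_anti subset_union_left
    apply union_subset_union_right
    intro x hx
    rw [mem_filter] at hx ⊢
    exact ⟨hx.1, by omega⟩
  linarith

theorem z_zero {A : V → V → Prop} {r : V → ℕ} (hr : Function.Injective r) {a : V}
    {P U : Finset V} (h : ¬ (a ∈ U ∧ a ∉ P)) : z A r a P U = 0 := by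
  unfold z
  have : P ∪ U.filter (fun x => r x < r a + 1) = P ∪ U.filter (fun x => r x < r a) := by
    ext x
    rw [mem_union, mem_union, mem_filter, mem_filter]
    constructor
    · rintro (h1 | ⟨h1, h2⟩)
      · exact Or.inl h1
      · by_cases hx : x = a
        · subst hx
          left
          by_contra h3
          exact h ⟨h1, h3⟩
        · right
          refine ⟨h1, ?_⟩
          have : r x ≠ r a := fun h3 => hx (hr h3)
          omega
    · rintro (h1 | ⟨h1, h2⟩)
      · exact Or.inl h1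
      · exact Or.inr ⟨h1, by omega⟩
  rw [this, sub_self]

theorem z_mono {A : V → V → Prop} {r : V → ℕ} (hr : Function.Injective r) {a : V}
    {P U P' U' : Finset V} (hP : P ⊆ P') (hU : U ⊆ U') (haU : a ∈ U) (haP : a ∉ P') :
    z A r a P U ≤ z A r a P' U' := by
  unfold z
  obtain ⟨R1, h1, h2, h3⟩ := m_attain A
    (subset_union_left : P ⊆ P ∪ U.filter (fun x => r x < r a + 1))
  obtain ⟨R', h1', h2', h3'⟩ := m_attain A
    (subset_union_left : P' ⊆ P' ∪ U'.filter (fun x => r x < r a))
  have e1 : m A P (P ∪ U.filter (fun x => r x < r a)) ≤ ic A (R1 ∩ R') := by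
    apply m_le
    · exact subset_inter h1 (hP.trans h1')
    · intro x hx
      obtain ⟨hx1, hx2⟩ := mem_inter.1 hx
      have hx1' := h2 hx1
      have hx2' := h2' hx2
      rw [mem_union, mem_filter] at hx1' hx2' ⊢
      rcases hx1' with h | ⟨h, h4⟩
      · exact Or.inl h
      · right
        refine ⟨h, ?_⟩
        have hne : x ≠ a := by
          rintro rfl
          rcases hx2' with h5 | ⟨_, h5⟩
          · exact haP h5
          · omega
        have : r x ≠ r a := fun h5 => hne (hr h5)
        omega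
  have e2 : m A P' (P' ∪ U'.filter (fun x => r x < r a + 1)) ≤ ic A (R1 ∪ R') := by
    apply m_le
    · exact h1'.trans subset_union_right
    · intro x hx
      rcases mem_union.1 hx with h | h
      · have h4 := h2 h
        rw [mem_union, mem_filter] at h4 ⊢
        rcases h4 with h4 | ⟨h4, h5⟩
        · exact Or.inl (hP h4)
        · exact Or.inr ⟨hU h4, h5⟩
      · have h4 := h2' h
        rw [mem_union, mem_filter] at h4 ⊢
        rcases h4 with h4 | ⟨h4, h5⟩
        · exact Or.inl h4
        · exact Or.inr ⟨h4, by omega⟩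
  have e3 := ic_submod A R1 R'
  linarith

theorem z_sum (A : V → V → Prop) (r : V ≃ Fin (Fintype.card V)) {P U : Finset V} (h : P ⊆ U) :
    ∑ a, z A (fun x => (r x : ℕ)) a P U = ic A P - m A P U := by
  set g : ℕ → ℤ := fun k => m A P (P ∪ U.filter (fun x => (r x : ℕ) < k)) with hg
  have h1 : ∀ a, z A (fun x => (r x : ℕ)) a P U = (fun i : Fin (Fintype.card V) =>
      g i - g (i + 1)) (r a) := fun a => rfl
  have h2 : ∑ a, z A (fun x => (r x : ℕ)) a P U =
      ∑ i : Fin (Fintype.card V), (g i - g (i + 1)) := by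
    rw [sum_congr rfl fun a _ => h1 a]
    exact Equiv.sum_comp r (fun i : Fin (Fintype.card V) => g i - g (i + 1))
  rw [h2, Fin.sum_univ_eq_sum_range (fun i => g i - g (i + 1)) (Fintype.card V),
    sum_range_sub']
  have h3 : g 0 = ic A P := by
    have : U.filter (fun x => (r x : ℕ) < 0) = ∅ := by
      apply filter_eq_empty_iff.2
      intro x _
      exact Nat.not_lt_zero _
    simp only [hg]
    rw [this, union_empty, m_self]
  have h4 : g (Fintype.card V) = m A P U := by
    have : U.filter (fun x => (r x : ℕ) < Fintype.card V) = U := by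
      apply filter_eq_self.2
      intro x _
      exact (r x).2
    simp only [hg]
    rw [this, union_eq_right.2 h]
  rw [h3, h4]

/-- Summing the potentials along the rows. -/
theorem row {A : V → V → Prop} {r : V → ℕ} (hr : Function.Injective r)
    {P U P' U' : V → Finset V}
    (hP' : ∀ b b', A b' b → P b' ⊆ P' b) (hU' : ∀ b b', A b' b → U b' ⊆ U' b) (a : V)
    (hH : ∀ Z : Finset V, (∀ x ∈ Z, a ∈ U x ∧ a ∉ P x) →
      ∃ Y : Finset V, Z.card ≤ Y.card ∧ ∀ x ∈ Y, (∃ y ∈ Z, A y x) ∧ a ∉ P' x) :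
    ∑ x, z A r a (P x) (U x) ≤ ∑ x, z A r a (P' x) (U' x) := by
  classical
  set S := univ.filter (fun x => a ∈ U x ∧ a ∉ P x) with hS
  let t : S → Finset V := fun x => univ.filter (fun y => A x y ∧ a ∉ P' y)
  have hall : ∀ s : Finset S, s.card ≤ (s.biUnion t).card := by
    intro s
    obtain ⟨Y, h1, h2⟩ := hH (s.map (Function.Embedding.subtype _)) (by
      intro x hx
      obtain ⟨y, _, rfl⟩ := mem_map.1 hx
      exact (mem_filter.1 y.2).2)
    rw [card_map] at h1
    refine h1.trans (card_le_card ?_)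
    intro x hx
    obtain ⟨⟨y, hy, hyx⟩, hx2⟩ := h2 x hx
    obtain ⟨y', hy', rfl⟩ := mem_map.1 hy
    exact mem_biUnion.2 ⟨y', hy', mem_filter.2 ⟨mem_univ _, hyx, hx2⟩⟩
  obtain ⟨f, hf, hft⟩ := (all_card_le_biUnion_card_iff_exists_injective t).1 hall
  have hft' : ∀ x : S, A x (f x) ∧ a ∉ P' (f x) := fun x => (mem_filter.1 (hft x)).2
  calc ∑ x, z A r a (P x) (U x) = ∑ x ∈ S, z A r a (P x) (U x) := by
        symm
        apply sum_subset (subset_univ _)
        intro x _ hx
        apply z_zero hr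
        intro h
        exact hx (mem_filter.2 ⟨mem_univ _, h⟩)
    _ = ∑ x : S, z A r a (P x) (U x) := (sum_coe_sort S (fun x => z A r a (P x) (U x))).symm
    _ ≤ ∑ x : S, z A r a (P' (f x)) (U' (f x)) := by
        apply sum_le_sum
        intro x _
        exact z_mono hr (hP' _ _ (hft' x).1) (hU' _ _ (hft' x).1) (mem_filter.1 x.2).2.1
          (hft' x).2
    _ = ∑ y ∈ univ.map ⟨f, hf⟩, z A r a (P' y) (U' y) := by
        rw [sum_map]
        rfl
    _ ≤ ∑ y, z A r a (P' y) (U' y) :=
        sum_le_univ_sum_of_nonneg fun y => z_nonneg A r a _ _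

/-- The inequality (S). -/
theorem ineqS {A : V → V → Prop} {P U P' U' : V → Finset V}
    (hPU : ∀ b, P b ⊆ U b) (hPU' : ∀ b, P' b ⊆ U' b)
    (hP' : ∀ b b', A b' b → P b' ⊆ P' b) (hU' : ∀ b b', A b' b → U b' ⊆ U' b)
    (hV' : ∀ b R, P' b ⊆ R → R ⊆ U' b → ic A (U' b) ≤ ic A R)
    (hH : ∀ (a : V) (Z : Finset V), (∀ x ∈ Z, a ∈ U x ∧ a ∉ P x) →
      ∃ Y : Finset V, Z.card ≤ Y.card ∧ ∀ x ∈ Y, (∃ y ∈ Z, A y x) ∧ a ∉ P' x) :
    ∑ x, (ic A (P x) - ic A (U x)) ≤ ∑ x, (ic A (P' x) - ic A (U' x)) := by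
  let r := Fintype.equivFin V
  have hr : Function.Injective (fun x => ((r x : Fin (Fintype.card V)) : ℕ)) := by
    intro x y hxy
    exact r.injective (Fin.ext hxy)
  calc ∑ x, (ic A (P x) - ic A (U x)) ≤ ∑ x, (ic A (P x) - m A (P x) (U x)) := by
        apply sum_le_sum
        intro x _
        have := m_le (A := A) (hPU x) (Subset.refl (U x))
        linarith
    _ = ∑ x, ∑ a, z A (fun x => (r x : ℕ)) a (P x) (U x) :=
        sum_congr rfl fun x _ => (z_sum A r (hPU x)).symm
    _ = ∑ a, ∑ x, z A (fun x => (r x : ℕ)) a (P x) (U x) := sum_comm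
    _ ≤ ∑ a, ∑ x, z A (fun x => (r x : ℕ)) a (P' x) (U' x) :=
        sum_le_sum fun a _ => row hr hP' hU' a (hH a)
    _ = ∑ x, ∑ a, z A (fun x => (r x : ℕ)) a (P' x) (U' x) := sum_comm
    _ = ∑ x, (ic A (P' x) - m A (P' x) (U' x)) :=
        sum_congr rfl fun x _ => z_sum A r (hPU' x)
    _ ≤ ∑ x, (ic A (P' x) - ic A (U' x)) := by
        apply sum_le_sum
        intro x _
        obtain ⟨R, h1, h2, h3⟩ := m_attain A (hPU' x)
        have := hV' x R h1 h2
        linarith

end Vale.Agent.P038.H289
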